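import Mathlib

/-! Polar decomposition, one parameter groups of self-adjoint operators, maximum lemma
(finite-dimensional complex inner product spaces). -/

set_option autoImplicit false

namespace Vale.Agent.P011.H184.Pol

open NormedSpace Filter Topology Module

section Eig

variable {E : Type*} [NormedAddCommGroup E] [NormedSpace ℂ E]

theorem pow_apply_of_eig (A : E →L[ℂ] E) (c : ℂ) (v : E) (h : A v = c • v) (n : ℕ) :
    (A ^ n) v = c ^ n • v := by
  induction n with
  | zero => simp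
  | succ n ih =>
    rw [pow_succ']
    show A ((A ^ n) v) = _
    rw [ih, map_smul, h, smul_smul, pow_succ]

theorem exp_apply_of_eig [CompleteSpace E] (A : E →L[ℂ] E) (c : ℂ) (v : E) (h : A v = c • v) :
    (exp A : E →L[ℂ] E) v = Complex.exp c • v := by
  have hs : HasSum (fun n : ℕ => ((n.factorial : ℂ)⁻¹ • A ^ n)) (exp A) :=
    NormedSpace.exp_series_hasSum_exp' (𝕂 := ℂ) A
  have hs2 := hs.mapL (ContinuousLinearMap.apply ℂ E v)
  have hs3 : HasSum (fun n : ℕ => ((n.factorial : ℂ)⁻¹ • c ^ n)) (exp c) :=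
    NormedSpace.exp_series_hasSum_exp' (𝕂 := ℂ) c
  have hs4 : HasSum (fun n : ℕ => ((n.factorial : ℂ)⁻¹ • c ^ n) • v) (exp c • v) := hs3.smul_const v
  rw [Complex.exp_eq_exp_ℂ]
  refine HasSum.unique hs2 ?_
  have he : (fun n : ℕ => (ContinuousLinearMap.apply ℂ E v) ((n.factorial : ℂ)⁻¹ • A ^ n)) =
      fun n : ℕ => ((n.factorial : ℂ)⁻¹ • c ^ n) • v := by
    funext n
    simp [pow_apply_of_eig A c v h n, smul_smul]
  rw [he]; exact hs4

theorem exp_apply_of_eig_real [CompleteSpace E] (A : E →L[ℂ] E) (c : ℝ) (v : E) (h : A v = c • v) :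
    (exp A : E →L[ℂ] E) v = Real.exp c • v := by
  have := exp_apply_of_eig A (c : ℂ) v (by rw [h]; exact (Complex.coe_smul c v).symm)
  rw [this, ← Complex.ofReal_exp]; exact Complex.coe_smul _ v

theorem exp_smul_apply_of_eig [CompleteSpace E] (A : E →L[ℂ] E) (c : ℝ) (v : E) (h : A v = c • v)
    (t : ℝ) : (exp (t • A) : E →L[ℂ] E) v = Real.exp (t * c) • v :=
  exp_apply_of_eig_real (t • A) (t * c) v (by
    show t • (A v) = _
    rw [h, smul_smul])

end Eig

section Herm

variable {V : Type*} [NormedAddCommGroup V] [InnerProductSpace ℂ V] [CompleteSpace V]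

theorem isSymm {S : V →L[ℂ] V} (hS : star S = S) : (S : V →ₗ[ℂ] V).IsSymmetric := by
  have : IsSelfAdjoint S := hS
  exact this.isSymmetric

variable [FiniteDimensional ℂ V]

/-- every vector is a sum of eigenvectors with real eigenvalues -/
theorem eig_induction {S : V →L[ℂ] V} (hS : star S = S) {p : V → Prop} (h0 : p 0)
    (hadd : ∀ x y, p x → p y → p (x + y)) (heig : ∀ (x : V) (a : ℝ), S x = a • x → p x) (x : V) :
    p x := by
  have hs := isSymm hS
  have hsum := (hs.eigenvectorBasis rfl).sum_repr x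
  rw [← hsum]
  refine Finset.sum_induction _ p hadd h0 fun i _ => heig _ (hs.eigenvalues rfl i) ?_
  have h1 : S ((hs.eigenvectorBasis rfl) i) = ((hs.eigenvalues rfl i : ℝ) : ℂ) •
    (hs.eigenvectorBasis rfl) i := hs.apply_eigenvectorBasis rfl i
  rw [map_smul, h1, smul_comm]
  exact Complex.coe_smul _ _

omit [FiniteDimensional ℂ V] in
/-- polar decomposition of an invertible operator -/
theorem polar (f : V →L[ℂ] V) (hf : IsUnit f) :
    ∃ k S : V →L[ℂ] V, star k * k = 1 ∧ k * star k = 1 ∧ star S = S ∧ f = k * exp S ∧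
      exp ((2 : ℝ) • S) = star f * f := by
  let _ : NormedAlgebra ℚ (V →L[ℂ] V) := .restrictScalars ℚ ℂ _
  have hP : IsStrictlyPositive (star f * f) :=
    CStarAlgebra.isStrictlyPositive_iff_eq_star_mul_self.mpr ⟨f, hf, rfl⟩
  have hlog : exp (CFC.log (star f * f)) = star f * f := CFC.exp_log _ hP
  have hsl : IsSelfAdjoint (CFC.log (star f * f)) := IsSelfAdjoint.log
  set S : V →L[ℂ] V := (1 / 2 : ℝ) • CFC.log (star f * f) with hSd
  have hS : star S = S := by
    rw [hSd, star_smul, hsl.star_eq]; simp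
  have h2 : exp ((2 : ℝ) • S) = star f * f := by
    rw [hSd, smul_smul]; norm_num; exact hlog
  have hc : Commute (-S) ((2 : ℝ) • S) := ((Commute.refl S).neg_left).smul_right _
  have hm1 : exp (-S) * exp ((2 : ℝ) • S) = exp S := by
    rw [← exp_add_of_commute hc]; congr 1
    rw [two_smul]; abel
  have hm2 : exp S * exp (-S) = 1 := by
    rw [← exp_add_of_commute (Commute.refl S).neg_right]; simp
  have hm3 : exp (-S) * exp S = 1 := by
    rw [← exp_add_of_commute (Commute.refl S).neg_left]; simp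
  have hst : star (exp (-S)) = exp (-S) := by rw [star_exp, star_neg, hS]
  have hk1 : star (f * exp (-S)) * (f * exp (-S)) = 1 := by
    rw [star_mul, hst, mul_assoc, ← mul_assoc (star f), ← h2, ← mul_assoc, hm1, hm2]
  have hu : IsUnit (f * exp (-S)) := hf.mul (isUnit_exp (-S))
  refine ⟨f * exp (-S), S, hk1, ?_, hS, ?_, h2⟩
  · obtain ⟨u, hu⟩ := hu
    rw [← hu] at hk1 ⊢
    have : star (u : V →L[ℂ] V) = ((u⁻¹ : (V →L[ℂ] V)ˣ) : V →L[ℂ] V) := by
      rw [← mul_one (star (u : V →L[ℂ] V)), ← u.mul_inv, ← mul_assoc, hk1, one_mul]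
    rw [this, u.mul_inv]
  · rw [mul_assoc, hm3, mul_one]

/-- biadditive, real homogeneous -/
structure Bi {W₁ W₂ W : Type*} [AddCommGroup W₁] [Module ℝ W₁] [AddCommGroup W₂] [Module ℝ W₂]
    [AddCommGroup W] [Module ℝ W] (N : W₁ → W₂ → W) : Prop where
  a1 : ∀ x x' y, N (x + x') y = N x y + N x' y
  a2 : ∀ x y y', N x (y + y') = N x y + N x y'
  s1 : ∀ (r : ℝ) x y, N (r • x) y = r • N x y
  s2 : ∀ (r : ℝ) x y, N x (r • y) = r • N x y

/-- triadditive, real homogeneous -/
structure Tri {W₁ W : Type*} [AddCommGroup W₁] [Module ℝ W₁]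
    [AddCommGroup W] [Module ℝ W] (N : W₁ → W₁ → W₁ → W) : Prop where
  a1 : ∀ x x' y z, N (x + x') y z = N x y z + N x' y z
  a2 : ∀ x y y' z, N x (y + y') z = N x y z + N x y' z
  a3 : ∀ x y z z', N x y (z + z') = N x y z + N x y z'
  s1 : ∀ (r : ℝ) x y z, N (r • x) y z = r • N x y z
  s2 : ∀ (r : ℝ) x y z, N x (r • y) z = r • N x y z
  s3 : ∀ (r : ℝ) x y z, N x y (r • z) = r • N x y z

section Forms

variable {V₂ : Type*} [NormedAddCommGroup V₂] [InnerProductSpace ℂ V₂] [CompleteSpace V₂]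
  [FiniteDimensional ℂ V₂] {W : Type*} [AddCommGroup W] [Module ℝ W]

theorem zero_or_of_exp {a : ℝ} {w : W} (h : Real.exp a • w = w) : a = 0 ∨ w = 0 := by
  have h1 : (Real.exp a - 1) • w = 0 := by rw [sub_smul, h, one_smul, sub_self]
  rcases smul_eq_zero.mp h1 with h2 | h2
  · left
    have : Real.exp a = 1 := by linarith
    simpa using this
  · right; exact h2

theorem bi_exp {N : V → V₂ → W} (hN : Bi N) {S₁ : V →L[ℂ] V} {S₂ : V₂ →L[ℂ] V₂}
    (h₁ : star S₁ = S₁) (h₂ : star S₂ = S₂) {r : ℝ} (hr : r ≠ 0)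
    (h : ∀ x y, N ((exp (r • S₁) : V →L[ℂ] V) x) ((exp (r • S₂) : V₂ →L[ℂ] V₂) y) = N x y) :
    (∀ (t : ℝ) x y, N ((exp (t • S₁) : V →L[ℂ] V) x) ((exp (t • S₂) : V₂ →L[ℂ] V₂) y) = N x y) ∧
      ∀ x y, N (S₁ x) y + N x (S₂ y) = 0 := by
  have key : ∀ x y (a b : ℝ), S₁ x = a • x → S₂ y = b • y → a + b = 0 ∨ N x y = 0 := by
    intro x y a b hx hy
    have h3 := h x y
    rw [exp_smul_apply_of_eig S₁ a x hx, exp_smul_apply_of_eig S₂ b y hy, hN.s1, hN.s2, smul_smul,
      ← Real.exp_add] at h3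
    rcases zero_or_of_exp h3 with h4 | h4
    · left
      have : r * (a + b) = 0 := by linarith
      exact (mul_eq_zero.mp this).resolve_left hr
    · exact Or.inr h4
  have z1 : ∀ y, N 0 y = 0 := fun y => by simpa using hN.s1 0 0 y
  have z2 : ∀ x, N x 0 = 0 := fun x => by simpa using hN.s2 0 x 0
  constructor
  · intro t x y
    refine eig_induction h₁ (p := fun x => ∀ y, N ((exp (t • S₁) : V →L[ℂ] V) x)
      ((exp (t • S₂) : V₂ →L[ℂ] V₂) y) = N x y) ?_ ?_ ?_ x y
    · intro y; rw [map_zero, z1, z1]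
    · intro x x' hx hx' y; rw [map_add, hN.a1, hN.a1, hx, hx']
    · intro x a hx y
      refine eig_induction h₂ (p := fun y => N ((exp (t • S₁) : V →L[ℂ] V) x)
        ((exp (t • S₂) : V₂ →L[ℂ] V₂) y) = N x y) ?_ ?_ ?_ y
      · rw [map_zero, z2, z2]
      · intro y y' hy hy'; rw [map_add, hN.a2, hN.a2, hy, hy']
      · intro y b hy
        rw [exp_smul_apply_of_eig S₁ a x hx, exp_smul_apply_of_eig S₂ b y hy, hN.s1, hN.s2,
          smul_smul, ← Real.exp_add]
        rcases key x y a b hx hy with h5 | h5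
        · rw [← mul_add, h5]; simp
        · rw [h5, smul_zero]
  · intro x y
    refine eig_induction h₁ (p := fun x => ∀ y, N (S₁ x) y + N x (S₂ y) = 0) ?_ ?_ ?_ x y
    · intro y; rw [map_zero, z1, z1, add_zero]
    · intro x x' hx hx' y
      rw [map_add, hN.a1, hN.a1]
      have := hx y; have := hx' y
      rw [add_add_add_comm, hx y, hx' y, add_zero]
    · intro x a hx y
      refine eig_induction h₂ (p := fun y => N (S₁ x) y + N x (S₂ y) = 0) ?_ ?_ ?_ y
      · rw [map_zero, z2, z2, add_zero]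
      · intro y y' hy hy'; rw [map_add, hN.a2, hN.a2, add_add_add_comm, hy, hy', add_zero]
      · intro y b hy
        rw [hx, hy, hN.s1, hN.s2, ← add_smul]
        rcases key x y a b hx hy with h5 | h5
        · rw [h5, zero_smul]
        · rw [h5, smul_zero]

theorem tri_exp {N : V → V → V → W} (hN : Tri N) {S₁ S₂ S₃ : V →L[ℂ] V}
    (h₁ : star S₁ = S₁) (h₂ : star S₂ = S₂) (h₃ : star S₃ = S₃) {r : ℝ} (hr : r ≠ 0)
    (h : ∀ x y z, N ((exp (r • S₁) : V →L[ℂ] V) x) ((exp (r • S₂) : V →L[ℂ] V) y)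
      ((exp (r • S₃) : V →L[ℂ] V) z) = N x y z) :
    (∀ (t : ℝ) x y z, N ((exp (t • S₁) : V →L[ℂ] V) x) ((exp (t • S₂) : V →L[ℂ] V) y)
      ((exp (t • S₃) : V →L[ℂ] V) z) = N x y z) ∧
      ∀ x y z, N (S₁ x) y z + N x (S₂ y) z + N x y (S₃ z) = 0 := by
  have key : ∀ x y z (a b c : ℝ), S₁ x = a • x → S₂ y = b • y → S₃ z = c • z →
      a + b + c = 0 ∨ N x y z = 0 := by
    intro x y z a b c hx hy hz
    have h3 := h x y z
    rw [exp_smul_apply_of_eig S₁ a x hx, exp_smul_apply_of_eig S₂ b y hy,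
      exp_smul_apply_of_eig S₃ c z hz, hN.s1, hN.s2, hN.s3, smul_smul, smul_smul,
      ← Real.exp_add, ← Real.exp_add] at h3
    rcases zero_or_of_exp h3 with h4 | h4
    · left
      have : r * (a + b + c) = 0 := by linarith
      exact (mul_eq_zero.mp this).resolve_left hr
    · exact Or.inr h4
  have z1 : ∀ y z, N 0 y z = 0 := fun y z => by simpa using hN.s1 0 0 y z
  have z2 : ∀ x z, N x 0 z = 0 := fun x z => by simpa using hN.s2 0 x 0 z
  have z3 : ∀ x y, N x y 0 = 0 := fun x y => by simpa using hN.s3 0 x y 0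
  constructor
  · intro t x y z
    refine eig_induction h₁ (p := fun x => ∀ y z, N ((exp (t • S₁) : V →L[ℂ] V) x)
      ((exp (t • S₂) : V →L[ℂ] V) y) ((exp (t • S₃) : V →L[ℂ] V) z) = N x y z) ?_ ?_ ?_ x y z
    · intro y z; rw [map_zero, z1, z1]
    · intro x x' hx hx' y z; rw [map_add, hN.a1, hN.a1, hx, hx']
    · intro x a hx y
      refine eig_induction h₂ (p := fun y => ∀ z, N ((exp (t • S₁) : V →L[ℂ] V) x)
        ((exp (t • S₂) : V →L[ℂ] V) y) ((exp (t • S₃) : V →L[ℂ] V) z) = N x y z) ?_ ?_ ?_ y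
      · intro z; rw [map_zero, z2, z2]
      · intro y y' hy hy' z; rw [map_add, hN.a2, hN.a2, hy, hy']
      · intro y b hy z
        refine eig_induction h₃ (p := fun z => N ((exp (t • S₁) : V →L[ℂ] V) x)
          ((exp (t • S₂) : V →L[ℂ] V) y) ((exp (t • S₃) : V →L[ℂ] V) z) = N x y z) ?_ ?_ ?_ z
        · rw [map_zero, z3, z3]
        · intro z z' hz hz'; rw [map_add, hN.a3, hN.a3, hz, hz']
        · intro z c hz
          rw [exp_smul_apply_of_eig S₁ a x hx, exp_smul_apply_of_eig S₂ b y hy,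
            exp_smul_apply_of_eig S₃ c z hz, hN.s1, hN.s2, hN.s3, smul_smul, smul_smul,
            ← Real.exp_add, ← Real.exp_add]
          rcases key x y z a b c hx hy hz with h5 | h5
          · rw [← mul_add, ← mul_add, h5]; simp
          · rw [h5, smul_zero]
  · intro x y z
    refine eig_induction h₁ (p := fun x => ∀ y z,
      N (S₁ x) y z + N x (S₂ y) z + N x y (S₃ z) = 0) ?_ ?_ ?_ x y z
    · intro y z; rw [map_zero, z1, z1, z1]; simp
    · intro x x' hx hx' y z
      rw [map_add, hN.a1, hN.a1, hN.a1]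
      have e1 := hx y z; have e2 := hx' y z
      have : (N (S₁ x) y z + N (S₁ x') y z) + (N x (S₂ y) z + N x' (S₂ y) z) +
        (N x y (S₃ z) + N x' y (S₃ z)) = (N (S₁ x) y z + N x (S₂ y) z + N x y (S₃ z)) +
        (N (S₁ x') y z + N x' (S₂ y) z + N x' y (S₃ z)) := by abel
      rw [this, e1, e2, add_zero]
    · intro x a hx y
      refine eig_induction h₂ (p := fun y => ∀ z,
        N (S₁ x) y z + N x (S₂ y) z + N x y (S₃ z) = 0) ?_ ?_ ?_ y
      · intro z; rw [map_zero, z2, z2, z2]; simp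
      · intro y y' hy hy' z
        rw [map_add, hN.a2, hN.a2, hN.a2]
        have e1 := hy z; have e2 := hy' z
        have : (N (S₁ x) y z + N (S₁ x) y' z) + (N x (S₂ y) z + N x (S₂ y') z) +
          (N x y (S₃ z) + N x y' (S₃ z)) = (N (S₁ x) y z + N x (S₂ y) z + N x y (S₃ z)) +
          (N (S₁ x) y' z + N x (S₂ y') z + N x y' (S₃ z)) := by abel
        rw [this, e1, e2, add_zero]
      · intro y b hy z
        refine eig_induction h₃ (p := fun z =>
          N (S₁ x) y z + N x (S₂ y) z + N x y (S₃ z) = 0) ?_ ?_ ?_ z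
        · rw [map_zero, z3, z3, z3]; simp
        · intro z z' hz hz'
          rw [map_add, hN.a3, hN.a3, hN.a3]
          have : (N (S₁ x) y z + N (S₁ x) y z') + (N x (S₂ y) z + N x (S₂ y) z') +
            (N x y (S₃ z) + N x y (S₃ z')) = (N (S₁ x) y z + N x (S₂ y) z + N x y (S₃ z)) +
            (N (S₁ x) y z' + N x (S₂ y) z' + N x y (S₃ z')) := by abel
          rw [this, hz, hz', add_zero]
        · intro z c hz
          rw [hx, hy, hz, hN.s1, hN.s2, hN.s3, ← add_smul, ← add_smul]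
          rcases key x y z a b c hx hy hz with h5 | h5
          · rw [h5, zero_smul]
          · rw [h5, smul_zero]

/-- a real linear (for instance linear or conjugate linear) map which intertwines one
`exp (r • S)` intertwines all `exp (t • S)` and `S` -/
theorem comm_exp {c : V → V₂} (ca : ∀ x y, c (x + y) = c x + c y)
    (cs : ∀ (r : ℝ) x, c (r • x) = r • c x) {S₁ : V →L[ℂ] V} {S₂ : V₂ →L[ℂ] V₂}
    (h₁ : star S₁ = S₁) (h₂ : star S₂ = S₂) {r : ℝ} (hr : r ≠ 0)
    (h : ∀ x, c ((exp (r • S₁) : V →L[ℂ] V) x) = (exp (r • S₂) : V₂ →L[ℂ] V₂) (c x)) :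
    (∀ (t : ℝ) x, c ((exp (t • S₁) : V →L[ℂ] V) x) = (exp (t • S₂) : V₂ →L[ℂ] V₂) (c x)) ∧
      ∀ x, c (S₁ x) = S₂ (c x) := by
  let _ : NormedAlgebra ℚ (V₂ →L[ℂ] V₂) := .restrictScalars ℚ ℂ _
  have hsa : ∀ t : ℝ, star (exp (t • S₂)) = exp (t • S₂) := by
    intro t; rw [star_exp, star_smul, h₂]; simp
  have hadj : ∀ (A : V₂ →L[ℂ] V₂), star A = A → ∀ x y, inner ℂ (A x) y = inner ℂ x (A y) :=
    fun A hA => isSymm hA
  have hB : Bi (fun x y => inner ℂ (c x) y : V → V₂ → ℂ) := by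
    refine ⟨fun x x' y => ?_, fun x y y' => ?_, fun r x y => ?_, fun r x y => ?_⟩
    · simp only [ca, inner_add_left]
    · simp only [inner_add_right]
    · simp only [cs]; rw [inner_smul_left_eq_smul]
    · exact inner_smul_right_eq_smul _ _ _
  have hneg : star (-S₂) = -S₂ := by rw [star_neg, h₂]
  have hinv : ∀ t : ℝ, exp (t • S₂) * exp (t • (-S₂)) = 1 := by
    intro t
    rw [smul_neg, ← exp_add_of_commute (Commute.refl (t • S₂)).neg_right]; simp
  have hinv' : ∀ (t : ℝ) (w : V₂), (exp (t • S₂) : V₂ →L[ℂ] V₂) ((exp (t • (-S₂)) :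
      V₂ →L[ℂ] V₂) w) = w := fun t w => by
    have := congrArg (fun A : V₂ →L[ℂ] V₂ => A w) (hinv t)
    exact this
  have main := bi_exp hB h₁ hneg hr (by
    intro x y
    rw [h, hadj _ (hsa r), hinv'])
  constructor
  · intro t x
    refine ext_inner_right ℂ fun y => ?_
    have := main.1 t x ((exp (t • S₂) : V₂ →L[ℂ] V₂) y)
    have hinv2 : (exp (t • (-S₂)) : V₂ →L[ℂ] V₂) ((exp (t • S₂) : V₂ →L[ℂ] V₂) y) = y := by
      have h8 : exp (t • (-S₂)) * exp (t • S₂) = 1 := by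
        rw [smul_neg, ← exp_add_of_commute (Commute.refl (t • S₂)).neg_left]; simp
      exact congrArg (fun A : V₂ →L[ℂ] V₂ => A y) h8
    rw [hinv2] at this
    rw [this, hadj _ (hsa t)]
  · intro x
    refine ext_inner_right ℂ fun y => ?_
    have := main.2 x y
    have h9 : (-S₂ : V₂ →L[ℂ] V₂) y = -(S₂ y) := rfl
    rw [h9, inner_neg_right] at this
    rw [hadj _ h₂]
    exact (sub_eq_zero.mp (by rw [sub_eq_add_neg]; exact this))

end Forms

omit [FiniteDimensional ℂ V] in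
theorem exp_mul_exp_neg (S : V →L[ℂ] V) : exp S * exp (-S) = 1 := by
  let _ : NormedAlgebra ℚ (V →L[ℂ] V) := .restrictScalars ℚ ℂ _
  rw [← exp_add_of_commute (Commute.refl S).neg_right]; simp

omit [FiniteDimensional ℂ V] in
theorem exp_neg_mul_exp (S : V →L[ℂ] V) : exp (-S) * exp S = 1 := by
  let _ : NormedAlgebra ℚ (V →L[ℂ] V) := .restrictScalars ℚ ℂ _
  rw [← exp_add_of_commute (Commute.refl S).neg_left]; simp

/-- polar decomposition in the group `{f | N f = N, f* J f = J}`, `J` a self-adjoint involution -/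
theorem polar_group {W : Type*} [AddCommGroup W] [Module ℝ W] {N : V → V → V → W} (hN : Tri N)
    {J : V →L[ℂ] V} (hJ : J * J = 1) (f : V →L[ℂ] V) (hf : IsUnit f)
    (hNf : ∀ x y z, N (f x) (f y) (f z) = N x y z)
    (hNs : ∀ x y z, N (star f x) (star f y) (star f z) = N x y z)
    (hfJ : star f * J * f = J) :
    ∃ k S : V →L[ℂ] V, star k * k = 1 ∧ k * star k = 1 ∧ star S = S ∧ f = k * exp S ∧
      exp ((2 : ℝ) • S) = star f * f ∧
      (∀ x y z, N (k x) (k y) (k z) = N x y z) ∧ k * J = J * k ∧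
      (∀ (t : ℝ) x y z, N ((exp (t • S) : V →L[ℂ] V) x) ((exp (t • S) : V →L[ℂ] V) y)
        ((exp (t • S) : V →L[ℂ] V) z) = N x y z) ∧
      (∀ x y z, N (S x) y z + N x (S y) z + N x y (S z) = 0) ∧
      (∀ t : ℝ, exp (t • S) * J * exp (t • S) = J) ∧ S * J + J * S = 0 := by
  obtain ⟨k, S, hk1, hk2, hS, hfk, h2⟩ := polar f hf
  have hP : ∀ x y z, N ((exp ((2 : ℝ) • S) : V →L[ℂ] V) x) ((exp ((2 : ℝ) • S) : V →L[ℂ] V) y)
      ((exp ((2 : ℝ) • S) : V →L[ℂ] V) z) = N x y z := by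
    intro x y z
    rw [h2]
    show N (star f (f x)) (star f (f y)) (star f (f z)) = _
    rw [hNs, hNf]
  have ht := tri_exp hN hS hS hS (two_ne_zero) hP
  -- f J f* = J
  have hfJ' : f * J * star f = J := by
    obtain ⟨u, rfl⟩ := hf
    have h1 : (J * star (u : V →L[ℂ] V) * J) * u = 1 := by
      rw [mul_assoc, mul_assoc, ← mul_assoc (star (u : V →L[ℂ] V)), hfJ, hJ]
    have h3 : J * star (u : V →L[ℂ] V) * J = ((u⁻¹ : (V →L[ℂ] V)ˣ) : V →L[ℂ] V) := by
      rw [← mul_one (J * star (u : V →L[ℂ] V) * J), ← u.mul_inv, ← mul_assoc, h1, one_mul]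
    have h4 : (u : V →L[ℂ] V) * (J * star (u : V →L[ℂ] V) * J) = 1 := by rw [h3, u.mul_inv]
    calc (u : V →L[ℂ] V) * J * star (u : V →L[ℂ] V)
        = (u : V →L[ℂ] V) * J * star (u : V →L[ℂ] V) * (J * J) := by rw [hJ, mul_one]
      _ = ((u : V →L[ℂ] V) * (J * star (u : V →L[ℂ] V) * J)) * J := by simp only [mul_assoc]
      _ = J := by rw [h4, one_mul]
  have hPJ : exp ((2 : ℝ) • S) * J * exp ((2 : ℝ) • S) = J := by
    rw [h2]
    calc star f * f * J * (star f * f) = star f * (f * J * star f) * f := by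
          simp only [mul_assoc]
      _ = J := by rw [hfJ', hfJ]
  have hneg : star (-S) = -S := by rw [star_neg, hS]
  have hc := comm_exp (c := fun x => J x) (fun x y => map_add J x y)
    (fun r x => J.map_smul_of_tower r x) hneg hS (two_ne_zero) (by
      intro x
      have h5 : J * exp ((2 : ℝ) • (-S)) = exp ((2 : ℝ) • S) * J := by
        have h6 := exp_mul_exp_neg ((2 : ℝ) • S)
        rw [smul_neg]
        calc J * exp (-((2 : ℝ) • S))
            = exp ((2 : ℝ) • S) * J * exp ((2 : ℝ) • S) * exp (-((2 : ℝ) • S)) := by rw [hPJ]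
          _ = exp ((2 : ℝ) • S) * J := by rw [mul_assoc, h6, mul_one]
      exact congrArg (fun A : V →L[ℂ] V => A x) h5)
  have hcJ : ∀ t : ℝ, J * exp (-(t • S)) = exp (t • S) * J := by
    intro t
    ext x
    have := hc.1 t x
    rw [smul_neg] at this
    exact this
  have htJ : ∀ t : ℝ, exp (t • S) * J * exp (t • S) = J := by
    intro t
    rw [← hcJ, mul_assoc, exp_neg_mul_exp, mul_one]
  have hkf : k = f * exp (-S) := by
    rw [hfk, mul_assoc, exp_mul_exp_neg, mul_one]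
  have hkJ : star k * J * k = J := by
    have hst : star (exp (-S)) = exp (-S) := by
      let _ : NormedAlgebra ℚ (V →L[ℂ] V) := .restrictScalars ℚ ℂ _
      rw [star_exp, star_neg, hS]
    rw [hkf, star_mul, hst]
    have h7 := htJ (-1)
    rw [neg_one_smul] at h7
    calc exp (-S) * star f * J * (f * exp (-S)) = exp (-S) * (star f * J * f) * exp (-S) := by
          simp only [mul_assoc]
      _ = J := by rw [hfJ, h7]
  refine ⟨k, S, hk1, hk2, hS, hfk, h2, ?_, ?_, ht.1, ht.2, htJ, ?_⟩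
  · intro x y z
    have h8 := ht.1 (-1) x y z
    rw [neg_one_smul] at h8
    rw [hkf]
    show N (f ((exp (-S) : V →L[ℂ] V) x)) (f ((exp (-S) : V →L[ℂ] V) y))
      (f ((exp (-S) : V →L[ℂ] V) z)) = _
    rw [hNf, h8]
  · calc k * J = k * (star k * J * k) := by rw [hkJ]
      _ = (k * star k) * J * k := by simp only [mul_assoc]
      _ = J * k := by rw [hk2, one_mul]
  · ext x
    have := hc.2 x
    have h9 : J ((-S) x) = -(J (S x)) := by
      show J (-(S x)) = _
      rw [map_neg]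
    rw [h9] at this
    show S (J x) + J (S x) = 0
    rw [← this]; simp

/-- maximum lemma -/
theorem max_lemma (K₀ : Set (V →L[ℂ] V)) (hc : IsClosed K₀) (hne : K₀.Nonempty)
    (hu : ∀ n ∈ K₀, star n * n = 1) (𝔨 : Set (V →L[ℂ] V)) (hsk : ∀ X ∈ 𝔨, star X = -X)
    (hact : ∀ X ∈ 𝔨, ∀ t : ℝ, ∀ n ∈ K₀, exp (t • X) * n ∈ K₀) (u e : V) :
    ∃ n ∈ K₀, (∀ n' ∈ K₀, RCLike.re (inner ℂ (n' u) e) ≤ RCLike.re (inner ℂ (n u) e)) ∧
      ∀ X ∈ 𝔨, RCLike.re (inner ℂ (n u) (X e)) = 0 := by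
  have : ProperSpace (V →L[ℂ] V) := FiniteDimensional.proper ℂ _
  have hb : K₀ ⊆ Metric.closedBall 0 1 := by
    intro n hn
    rw [mem_closedBall_zero_iff]
    have h1 : ‖n‖ * ‖n‖ ≤ 1 := by
      rw [← CStarRing.norm_star_mul_self, hu n hn]; exact ContinuousLinearMap.norm_id_le
    nlinarith [norm_nonneg n]
  have hK : IsCompact K₀ := (isCompact_closedBall (0 : V →L[ℂ] V) 1).of_isClosed_subset hc hb
  have hev : ∀ w : V, Continuous fun n : V →L[ℂ] V => n w :=
    fun w => (ContinuousLinearMap.apply ℂ V w).continuous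
  have hcont : Continuous fun n : V →L[ℂ] V => RCLike.re (inner ℂ (n u) e) :=
    RCLike.continuous_re.comp ((hev u).inner continuous_const)
  obtain ⟨n, hn, hmax⟩ := hK.exists_isMaxOn hne hcont.continuousOn
  refine ⟨n, hn, fun n' hn' => hmax hn', fun X hX => ?_⟩
  have hd : HasDerivAt (fun t : ℝ => (exp (t • X) : V →L[ℂ] V)) X 0 := by
    have := hasDerivAt_exp_smul_const (𝕂 := ℝ) X 0
    simpa using this
  have hd2 : HasDerivAt (fun t : ℝ => (exp (t • X) : V →L[ℂ] V) (n u)) (X (n u)) 0 :=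
    (((ContinuousLinearMap.apply ℂ V (n u)).restrictScalars ℝ).hasFDerivAt.comp_hasDerivAt (0 : ℝ) hd)
  have hd3 : HasDerivAt (fun t : ℝ => inner ℂ ((exp (t • X) : V →L[ℂ] V) (n u)) e)
      (inner ℂ (X (n u)) e) 0 := by
    have := hd2.inner ℂ (hasDerivAt_const (0 : ℝ) e)
    simpa using this
  have hd4 : HasDerivAt (fun t : ℝ => RCLike.re (inner ℂ ((exp (t • X) : V →L[ℂ] V) (n u)) e))
      (RCLike.re (inner ℂ (X (n u)) e)) 0 :=
    ((RCLike.reCLM (K := ℂ)).hasFDerivAt.comp_hasDerivAt (0 : ℝ) hd3)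
  have hloc : IsLocalMax (fun t : ℝ => RCLike.re (inner ℂ ((exp (t • X) : V →L[ℂ] V) (n u)) e)) 0 := by
    refine Filter.Eventually.of_forall fun t => ?_
    have h5 := hmax (hact X hX t n hn)
    simpa using h5
  have h6 := hloc.hasDerivAt_eq_zero hd4
  have h7 : inner ℂ (X (n u)) e = inner ℂ (n u) (star X e) := by
    rw [ContinuousLinearMap.star_eq_adjoint, ContinuousLinearMap.adjoint_inner_right]
  rw [h7, hsk X hX] at h6
  have h9 : (-X : V →L[ℂ] V) e = -(X e) := rfl
  rw [h9, inner_neg_right, map_neg, neg_eq_zero] at h6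
  exact h6

end Herm

end Vale.Agent.P011.H184.Pol
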